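import Vale.Agent.P146.Div.Var.Stein

/-!
The centred traces and the remainders are negligible in mean square.
-/

noncomputable section

open MeasureTheory ProbabilityTheory Finset Filter
open scoped Topology

namespace Vale.Agent.P146.Div.Var

variable {n : ℕ}

attribute [local instance] Interp.isProb

theorem eventually_big (K : ℕ) (hK : 2 ≤ K) : ∀ᶠ n : ℕ in atTop, Big 0 n K :=
  (tendsto_natCast_atTop_atTop.eventually_ge_atTop _).mono fun _ hn => ⟨hK, le_rfl, hn⟩

theorem mean_trC (i : ℕ) : mean (trC (n := n) i) = mean (trU (n := n) i) - if i = 0 then 1 else 0 := by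
  simp only [mean, trC]
  rw [integral_sub (Tame.trU _).integrable (integrable_const _), integral_const, probReal_univ,
    one_smul]

/-- The means of the centred traces vanish in the limit. -/
theorem mean_trC_tendsto (i : ℕ) : Tendsto (fun n => mean (trC (n := n) i)) atTop (𝓝 0) := by
  refine squeeze_zero_norm' ?_
    (tendsto_const_div_atTop_nhds_zero_nat ((i : ℝ) * (9 * ((i + 2 : ℕ) : ℝ) ^ 2)))
  filter_upwards [eventually_big (i + 2) (by omega), eventually_ne_atTop 0] with n hB hn
  rcases Nat.eq_zero_or_pos i with rfl | hi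
  · simp [mean, trC, trU_zero hn]
  · rw [mean_trC, if_neg hi.ne', sub_zero, Real.norm_eq_abs, mul_div_assoc]
    exact trU_mean_le hB i hi (by omega)

/-- The fourth moments of the centred traces are of order `n ^ -4`. -/
theorem mean_trC_four (i : ℕ) :
    ∃ C : ℝ, ∀ᶠ n : ℕ in atTop, mean (fun g : Cfg n => trC i g ^ 4) ≤ C / (n : ℝ) ^ 4 := by
  rcases Nat.eq_zero_or_pos i with rfl | hi
  · exact ⟨0, (eventually_ne_atTop 0).mono fun n hn => by simp [mean, trC, trU_zero hn]⟩
  refine ⟨8 * (200 * (1024 * ((i + 2 : ℕ) : ℝ) ^ 6) ^ 2 +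
    ((i : ℝ) * (9 * ((i + 2 : ℕ) : ℝ) ^ 2)) ^ 4), ?_⟩
  filter_upwards [eventually_big (i + 2) (by omega)] with n hB
  obtain ⟨hn0, hn4⟩ := big_pos hB
  have e : trC (n := n) i = trU i := by funext g; simp [trC, hi.ne']
  rw [e]
  set c := mean (trU (n := n) i) with hc
  have hc4 : c ^ 4 ≤ ((i : ℝ) * (9 * ((i + 2 : ℕ) : ℝ) ^ 2) / n) ^ 4 := by
    rw [mul_div_assoc]
    refine le_of_eq_of_le ?_ (pow_le_pow_left₀ (abs_nonneg _) (trU_mean_le hB i hi (by omega)) 4)
    rw [Even.pow_abs (by decide)]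
  have h4 : mean (fun g : Cfg n => (trU i g - c) ^ 4) ≤
      200 * (1024 * ((i + 2 : ℕ) : ℝ) ^ 6 / (n : ℝ) ^ 2) ^ 2 := by
    have h := gauss_moment (Tame.trU (n := n) i) 2
    have h2 := mean_gradSq_pow_le hB (p := 2) (i := i) (by omega) (by omega)
    simp only [mean, gradSq] at h2
    push_cast at h h2
    norm_num at h
    refine h.trans ((mul_le_mul_of_nonneg_left h2 (by norm_num)).trans_eq ?_)
    push_cast
    ring
  have hpt : ∀ g : Cfg n, trU i g ^ 4 ≤ 8 * ((trU i g - c) ^ 4 + c ^ 4) := fun g => by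
    nlinarith [sq_nonneg (trU i g - c - c), sq_nonneg ((trU i g - c) ^ 2 - c ^ 2),
      sq_nonneg (trU i g), sq_nonneg (trU i g - c), sq_nonneg c]
  have hT : Tame (fun g : Cfg n => (trU i g - c) ^ 4) := ((Tame.trU i).sub (Tame.const c)).pow 4
  refine (integral_mono ((Tame.trU i).pow 4).integrable
    (Tame.const_mul 8 (hT.add (Tame.const _))).integrable hpt).trans ?_
  rw [integral_const_mul, integral_add hT.integrable (integrable_const _), integral_const,
    probReal_univ, one_smul]
  simp only [mean] at h4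
  refine (mul_le_mul_of_nonneg_left (add_le_add h4 hc4) (by norm_num)).trans_eq ?_
  rw [div_pow, div_pow, ← pow_mul]
  ring

/-- Negligible in mean square. -/
def Negl (f : ∀ n, Cfg n → ℝ) : Prop :=
  (∀ n, Tame (f n)) ∧ Tendsto (fun n => mean (fun g => f n g ^ 2)) atTop (𝓝 0)

theorem Negl.of_le {f : ∀ n, Cfg n → ℝ} (hf : ∀ n, Tame (f n)) {B : ℕ → ℝ}
    (hB : Tendsto B atTop (𝓝 0)) (h : ∀ᶠ n in atTop, mean (fun g => f n g ^ 2) ≤ B n) : Negl f :=
  ⟨hf, squeeze_zero' (Eventually.of_forall fun _ => integral_nonneg fun _ => sq_nonneg _) h hB⟩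

theorem Negl.zero : Negl (fun n (_ : Cfg n) => 0) :=
  ⟨fun _ => Tame.const 0, by simp [mean]⟩

theorem Negl.add {f h : ∀ n, Cfg n → ℝ} (hf : Negl f) (hh : Negl h) :
    Negl fun n g => f n g + h n g := by
  refine Negl.of_le (fun n => (hf.1 n).add (hh.1 n))
    (B := fun n => 2 * (mean (fun g => f n g ^ 2) + mean (fun g => h n g ^ 2)))
    (by simpa using (hf.2.add hh.2).const_mul 2) (Eventually.of_forall fun n => ?_)
  simp only [mean]
  rw [← integral_add ((hf.1 n).pow 2).integrable ((hh.1 n).pow 2).integrable, ← integral_const_mul]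
  exact integral_mono (((hf.1 n).add (hh.1 n)).pow 2).integrable
    (Tame.const_mul 2 (((hf.1 n).pow 2).add ((hh.1 n).pow 2))).integrable fun g => add_sq_le

theorem Negl.sum {ι : Type*} (s : Finset ι) {f : ι → ∀ n, Cfg n → ℝ}
    (hf : ∀ i ∈ s, Negl (f i)) : Negl fun n g => ∑ i ∈ s, f i n g := by
  induction s using Finset.cons_induction with
  | empty => simpa using Negl.zero
  | cons a s has ih =>
    simp only [sum_cons]
    exact (hf a (mem_cons_self a s)).add (ih fun i hi => hf i (mem_cons_of_mem hi))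

theorem Negl.const_mul {f : ∀ n, Cfg n → ℝ} (c : ℝ) (hf : Negl f) :
    Negl fun n g => c * f n g := by
  refine ⟨fun n => Tame.const_mul c (hf.1 n), ?_⟩
  simpa [mean, mul_pow, integral_const_mul] using hf.2.const_mul (c ^ 2)

theorem negl_trC (i : ℕ) : Negl fun _ g => trC i g := by
  obtain ⟨C, hC⟩ := mean_trC_four i
  refine Negl.of_le (fun n => tame_trC i) (B := fun n : ℕ => (C + 1) / (2 * (n : ℝ) ^ 2))
    (tendsto_const_nhds.div_atTop (Tendsto.const_mul_atTop two_pos
      ((tendsto_pow_atTop two_ne_zero).comp tendsto_natCast_atTop_atTop))) ?_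
  filter_upwards [hC, eventually_ne_atTop 0] with n hn hn0
  have hn' : (0 : ℝ) < n := by exact_mod_cast Nat.pos_of_ne_zero hn0
  have hpt : ∀ g : Cfg n, trC i g ^ 2 ≤
      (n : ℝ) ^ 2 / 2 * trC i g ^ 4 + 1 / (2 * (n : ℝ) ^ 2) := fun g => by
    rw [div_mul_eq_mul_div, div_add_div _ _ two_ne_zero (by positivity),
      le_div_iff₀ (by positivity)]
    nlinarith [sq_nonneg ((n : ℝ) ^ 2 * trC i g ^ 2 - 1)]
  refine (integral_mono ((tame_trC i).pow 2).integrable
    ((Tame.const_mul _ ((tame_trC i).pow 4)).add (Tame.const _)).integrable hpt).trans ?_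
  rw [integral_add (Tame.const_mul _ ((tame_trC i).pow 4)).integrable (integrable_const _),
    integral_const_mul, integral_const, probReal_univ, one_smul]
  simp only [mean] at hn
  refine (add_le_add (mul_le_mul_of_nonneg_left hn (by positivity)) le_rfl).trans_eq ?_
  field_simp

theorem negl_trC_mul (i j : ℕ) : Negl fun n g => (n : ℝ) * (trC i g * trC j g) := by
  obtain ⟨C, hC⟩ := mean_trC_four i
  obtain ⟨C', hC'⟩ := mean_trC_four j
  refine Negl.of_le (fun n => Tame.const_mul _ ((tame_trC i).mul (tame_trC j)))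
    (B := fun n : ℕ => (C + C') / 2 / (n : ℝ) ^ 2)
    (tendsto_const_nhds.div_atTop
      ((tendsto_pow_atTop two_ne_zero).comp tendsto_natCast_atTop_atTop)) ?_
  filter_upwards [hC, hC', eventually_ne_atTop 0] with n hn hn' hn0
  have hnp : (0 : ℝ) < n := by exact_mod_cast Nat.pos_of_ne_zero hn0
  have hpt : ∀ g : Cfg n, ((n : ℝ) * (trC i g * trC j g)) ^ 2 ≤
      (n : ℝ) ^ 2 / 2 * (trC i g ^ 4 + trC j g ^ 4) := fun g => by
    rw [mul_pow, div_mul_eq_mul_div, le_div_iff₀ two_pos, mul_assoc]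
    refine mul_le_mul_of_nonneg_left ?_ (sq_nonneg _)
    nlinarith [sq_nonneg (trC i g ^ 2 - trC j g ^ 2)]
  refine (integral_mono ((Tame.const_mul _ ((tame_trC i).mul (tame_trC j))).pow 2).integrable
    (Tame.const_mul _ (((tame_trC i).pow 4).add ((tame_trC j).pow 4))).integrable hpt).trans ?_
  rw [integral_const_mul,
    integral_add ((tame_trC i).pow 4).integrable ((tame_trC j).pow 4).integrable]
  simp only [mean] at hn hn'
  refine (mul_le_mul_of_nonneg_left (add_le_add hn hn') (by positivity)).trans_eq ?_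
  field_simp

theorem negl_rem (m : ℕ) : Negl fun _ g => rem m g := by
  simp only [rem]
  exact (Negl.sum _ fun i _ => negl_trC_mul (i + 1) (m - 2 - i)).add
    (Negl.sum _ fun i _ => Negl.sum _ fun l _ => negl_trC _)

end Vale.Agent.P146.Div.Var
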