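import Vale.Agent.P146.Event
import Vale.Agent.P146.DabRules

/-!
Chebyshev trace statistics and their divergence forms: exact identities.
-/

noncomputable section

open MeasureTheory ProbabilityTheory Finset

namespace Vale.Agent.P146.Div.Var

variable {n : ℕ}

attribute [local instance] Interp.isProb

/-- The trace of `U i`, less its limit. -/
def trC (i : ℕ) (g : Cfg n) : ℝ := trU i g - if i = 0 then 1 else 0

/-- The Chebyshev trace statistic of order `k`. -/
def stat (k : ℕ) (g : Cfg n) : ℝ := n * (trU k g - trU (k - 2) g)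

/-- The divergence of the field given by the entries of `U m`. -/
def psi (m : ℕ) (g : Cfg n) : ℝ :=
  ∑ a, ∑ b, (mat g a b * uEnt m a b g - (n : ℝ)⁻¹ * Dab (a, b) (uEnt m a b) g)

/-- The part of `psi m` beside the statistic and a constant. -/
def rem (m : ℕ) (g : Cfg n) : ℝ :=
  ∑ i ∈ range (m - 2), (n : ℝ) * (trC (i + 1) g * trC (m - 2 - i) g) +
    ∑ i ∈ range m, ∑ l ∈ range (min i (m - 1 - i) + 1), trC (m - 1 - 2 * l) g

/-- The constant in `psi m`. -/
def cst (m : ℕ) : ℝ :=
  ∑ i ∈ range m, ∑ l ∈ range (min i (m - 1 - i) + 1), if m - 1 - 2 * l = 0 then 1 else 0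

theorem tame_trC (i : ℕ) : Tame (trC (n := n) i) := (Tame.trU i).sub (Tame.const _)

theorem tame_stat (k : ℕ) : Tame (stat (n := n) k) :=
  Tame.const_mul _ ((Tame.trU _).sub (Tame.trU _))

theorem tame_psi (m : ℕ) : Tame (psi (n := n) m) :=
  Tame.sum _ fun a _ => Tame.sum _ fun b _ =>
    ((Tame.matEntry a b).mul (Tame.uEnt m a b)).sub (Tame.const_mul _ ((Tame.uEnt m a b).dab _))

theorem tame_rem (m : ℕ) : Tame (rem (n := n) m) :=
  (Tame.sum _ fun _ _ => Tame.const_mul _ ((tame_trC _).mul (tame_trC _))).add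
    (Tame.sum _ fun _ _ => Tame.sum _ fun _ _ => tame_trC _)

theorem tri_sum (u : ℕ → ℝ) (i : ℕ) :
    ∑ p ∈ range (i + 2), ∑ l ∈ range (min p (i + 2 - 1 - p) + 1), u (i + 2 - 1 - 2 * l) =
      ((i : ℝ) + 2) * u (i + 1) +
        ∑ p ∈ range i, ∑ l ∈ range (min p (i - 1 - p) + 1), u (i - 1 - 2 * l) := by
  simp only [sum_range_succ' _ (min _ _), mul_zero, Nat.sub_zero, sum_add_distrib, sum_const,
    card_range, nsmul_eq_mul]
  rw [sum_range_succ' (fun p => ∑ l ∈ range (min p (i + 2 - 1 - p)), u _) (i + 1), sum_range_succ]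
  simp only [Nat.zero_min, range_zero, sum_empty, add_zero,
    show i + 2 - 1 - (i + 1) = 0 by omega, Nat.min_zero]
  rw [add_comm]
  congr 1
  · push_cast
    simp
  · have hq : ∀ q ∈ range i, ∑ l ∈ range (min (q + 1) (i + 2 - 1 - (q + 1))),
        u (i + 2 - 1 - 2 * (l + 1)) =
          ∑ l ∈ range (min q (i - 1 - q) + 1), u (i - 1 - 2 * l) := by
      intro q hq
      rw [mem_range] at hq
      rw [show min (q + 1) (i + 2 - 1 - (q + 1)) = min q (i - 1 - q) + 1 by omega]
      exact sum_congr rfl fun l _ => by rw [show i + 2 - 1 - 2 * (l + 1) = i - 1 - 2 * l by omega]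
    rw [sum_congr rfl hq]
    simp only [sum_range_succ' _ (min _ _), mul_zero, Nat.sub_zero, sum_add_distrib, sum_const,
      card_range, nsmul_eq_mul]

/-- The derivative of a statistic is one Chebyshev matrix. -/
theorem Dab_stat (j : ℕ) (c d : Fin n) (g : Cfg n) :
    Dab (c, d) (stat (j + 2)) g = 2 * ((j : ℝ) + 2) * uEnt (j + 1) c d g := by
  have hn : (n : ℝ) ≠ 0 := by exact_mod_cast c.pos.ne'
  have e : stat (n := n) (j + 2) = fun g => (n : ℝ) * (trU (j + 2) g - trU j g) := rfl
  rw [e, congrFun (Dab_const_mul _ _ ((Tame.trU _).sub (Tame.trU _))) g,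
    congrFun (Dab_sub _ (Tame.trU _) (Tame.trU _)) g, Dab_trU_eq, Dab_trU_eq,
    tri_sum (fun q => uEnt q c d g) j]
  field_simp
  ring

/-- Gaussian integration by parts against the field of `U m`. -/
theorem mean_psi_mul (hn : n ≠ 0) (m : ℕ) {f : Cfg n → ℝ} (hf : Tame f) :
    mean (fun g => psi m g * f g) =
      (n : ℝ)⁻¹ * mean (fun g => ∑ a, ∑ b, uEnt m a b g * Dab (a, b) f g) := by
  have hU := fun a b : Fin n => Tame.uEnt (n := n) m a b
  have hterm : ∀ a b : Fin n, mean (fun g : Cfg n =>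
      (mat g a b * uEnt m a b g - (n : ℝ)⁻¹ * Dab (a, b) (uEnt m a b) g) * f g) =
        (n : ℝ)⁻¹ * mean (fun g => uEnt m a b g * Dab (a, b) f g) := by
    intro a b
    have h := mean_mat_mul hn ((hU a b).mul hf) a b
    rw [Dab_mul _ (hU a b) hf] at h
    simp only [mean] at h ⊢
    rw [integral_add (((hU a b).dab _).mul hf).integrable ((hU a b).mul (hf.dab _)).integrable] at h
    have e : ∀ g : Cfg n, (mat g a b * uEnt m a b g - (n : ℝ)⁻¹ * Dab (a, b) (uEnt m a b) g) * f g =
        mat g a b * (uEnt m a b g * f g) - (n : ℝ)⁻¹ * (Dab (a, b) (uEnt m a b) g * f g) :=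
      fun g => by ring
    simp only [e]
    rw [integral_sub ((Tame.matEntry a b).mul ((hU a b).mul hf)).integrable
      (Tame.const_mul _ (((hU a b).dab _).mul hf)).integrable, integral_const_mul, h]
    ring
  have hT : ∀ a b : Fin n, Tame (fun g : Cfg n =>
      (mat g a b * uEnt m a b g - (n : ℝ)⁻¹ * Dab (a, b) (uEnt m a b) g) * f g) := fun a b =>
    (((Tame.matEntry a b).mul (hU a b)).sub (Tame.const_mul _ ((hU a b).dab _))).mul hf
  simp only [mean, psi, sum_mul] at hterm ⊢
  rw [integral_finsetSum _ fun a _ => (Tame.sum _ fun b _ => hT a b).integrable,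
    integral_finsetSum _ fun a _ =>
      (Tame.sum _ fun b _ => (hU a b).mul (hf.dab (a, b))).integrable, mul_sum]
  refine sum_congr rfl fun a _ => ?_
  rw [integral_finsetSum _ fun b _ => (hT a b).integrable,
    integral_finsetSum _ fun b _ => ((hU a b).mul (hf.dab (a, b))).integrable, mul_sum]
  exact sum_congr rfl fun b _ => hterm a b

theorem mean_psi (hn : n ≠ 0) (m : ℕ) : mean (psi (n := n) m) = 0 := by
  simpa [Dab_const, mean] using mean_psi_mul hn m (Tame.const (1 : ℝ))

theorem diag_sum (hn : n ≠ 0) (i : ℕ) (g : Cfg n) : ∑ a, uEnt i a a g = n * trU i g := by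
  rw [trU, mul_div_cancel₀ _ (by exact_mod_cast hn)]

theorem frob_pair (hn : n ≠ 0) (i j : ℕ) (g : Cfg n) :
    ∑ a, ∑ b, uEnt i a b g * uEnt j a b g =
      n * ∑ l ∈ range (min i j + 1), trU (i + j - 2 * l) g := by
  have e : ∀ a, ∑ b, uEnt i a b g * uEnt j a b g =
      ∑ l ∈ range (min i j + 1), uEnt (i + j - 2 * l) a a g := fun a => by
    rw [← uEnt_mul]
    exact sum_congr rfl fun b _ => by rw [uEnt_symm j a b]
  simp only [e]
  rw [sum_comm, mul_sum]
  exact sum_congr rfl fun l _ => diag_sum hn _ g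

/-- The divergence form is the statistic up to a small remainder and a constant. -/
theorem psi_eq (hn : n ≠ 0) (j : ℕ) (g : Cfg n) :
    psi (j + 2) g = stat (j + 3) g - rem (j + 2) g - cst (j + 2) := by
  have hn' : (n : ℝ) ≠ 0 := by exact_mod_cast hn
  have hA : ∑ a, ∑ b, mat g a b * uEnt (j + 2) a b g =
      n * (trU (j + 3) g + trU (j + 1) g) := by
    rw [mul_add, ← diag_sum hn, ← diag_sum hn, ← sum_add_distrib]
    refine sum_congr rfl fun a _ => ?_
    simp only [uEnt_symm (j + 2) a, mat_mul_uEnt]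
  have hB : ∑ a, ∑ b, Dab (a, b) (uEnt (j + 2) a b) g = ∑ i ∈ range (j + 2),
      (n * trU i g * (n * trU (j + 2 - 1 - i) g) +
        n * ∑ l ∈ range (min i (j + 2 - 1 - i) + 1), trU (j + 2 - 1 - 2 * l) g) := by
    simp only [Dab_uEnt]
    rw [sum_comm_cycle]
    refine sum_congr rfl fun i hi => ?_
    rw [mem_range] at hi
    rw [← diag_sum hn, ← diag_sum hn, sum_mul_sum]
    simp only [sum_add_distrib]
    congr 1
    rw [frob_pair hn, show i + (j + 2 - 1 - i) = j + 2 - 1 by omega]
  rw [psi]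
  simp only [sum_sub_distrib, ← mul_sum]
  rw [hA, hB, stat, rem, cst, show j + 3 - 2 = j + 1 by omega, Nat.add_sub_cancel]
  simp only [sum_add_distrib]
  have hsq : ∑ i ∈ range (j + 2), (n : ℝ) * trU i g * (n * trU (j + 2 - 1 - i) g) =
      n * (n * (2 * trU (j + 1) g) +
        ∑ i ∈ range j, (n : ℝ) * (trC (i + 1) g * trC (j - i) g)) := by
    rw [sum_range_succ', sum_range_succ]
    simp only [show j + 2 - 1 = j + 1 by omega, Nat.sub_self, Nat.sub_zero, trU_zero hn,
      mul_add, mul_sum]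
    have e : ∀ i ∈ range j, (n : ℝ) * trU (i + 1) g * (n * trU (j + 1 - (i + 1)) g) =
        n * (n * (trC (i + 1) g * trC (j - i) g)) := fun i hi => by
      rw [mem_range] at hi
      simp only [trC, if_neg (show i + 1 ≠ 0 by omega), if_neg (show j - i ≠ 0 by omega), sub_zero,
        show j + 1 - (i + 1) = j - i by omega]
      ring
    rw [sum_congr rfl e]
    ring
  rw [hsq]
  simp only [trC, sum_sub_distrib, ← mul_sum]
  field_simp
  ring

/-- The covariance of a divergence form and a statistic. -/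
theorem mean_psi_stat (hn : n ≠ 0) (m j : ℕ) :
    mean (fun g : Cfg n => psi m g * stat (j + 2) g) = 2 * ((j : ℝ) + 2) *
      ∑ l ∈ range (min m (j + 1) + 1), mean (trU (n := n) (m + (j + 1) - 2 * l)) := by
  have hn' : (n : ℝ) ≠ 0 := by exact_mod_cast hn
  rw [mean_psi_mul hn m (tame_stat _)]
  have e : ∀ g : Cfg n, ∑ a, ∑ b, uEnt m a b g * Dab (a, b) (stat (j + 2)) g =
      2 * ((j : ℝ) + 2) * n * ∑ l ∈ range (min m (j + 1) + 1), trU (m + (j + 1) - 2 * l) g := by
    intro g
    rw [mul_assoc, ← frob_pair hn, mul_sum]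
    refine sum_congr rfl fun a _ => ?_
    rw [mul_sum]
    exact sum_congr rfl fun b _ => by rw [Dab_stat]; ring
  simp only [mean, e, integral_const_mul]
  rw [integral_finsetSum _ fun l _ => (Tame.trU _).integrable]
  field_simp

theorem Dab_Fen_diag (β : ℝ) (a : Fin n) (g : Cfg n) : Dab (a, a) (Fen β) g = 0 := by
  simp [Dab, pd_Fen, dEnergy_diag]

end Vale.Agent.P146.Div.Var
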